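import Mathlib.Geometry.Manifold.ContMDiff.Atlas
import Mathlib.Geometry.Manifold.ContMDiff.NormedSpace
import Mathlib.Geometry.Manifold.ContMDiffMFDeriv
import Mathlib.Geometry.Manifold.MFDeriv.SpecificFunctions
import Mathlib.Analysis.Calculus.InverseFunctionTheorem.ContDiff
import Mathlib.Analysis.Complex.Basic

/-!
# P281 (helper48): a map with holomorphic immersive local inverses is holomorphic and immersive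

`g : ℂ^a × H → F`, `dim H = h`, `dim F = a + h`, has at `(z, x)` a local inverse `(ζ, ξ)` which is
holomorphic with injective differential. By the inverse function theorem in charts `(ζ, ξ)` is a
local biholomorphism, and `g` is its inverse near `(z, x)`.
-/

open Set Filter
open scoped Topology ContDiff Manifold

noncomputable section

namespace Vale.Agent.P281.H48

variable {a h d : ℕ} {F H : Type} [TopologicalSpace F] [ChartedSpace (Fin d → ℂ) F]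
  [IsManifold 𝓘(ℂ, Fin d → ℂ) ω F] [TopologicalSpace H] [ChartedSpace (Fin h → ℂ) H]
  [IsManifold 𝓘(ℂ, Fin h → ℂ) ω H]

/-- An injective map between spaces of the same dimension is a continuous linear equivalence. -/
theorem equiv_of_inj (hd : a + h = d) (D : (Fin d → ℂ) →L[ℂ] (Fin a → ℂ) × (Fin h → ℂ))
    (hi : Function.Injective D) :
    ∃ e : (Fin d → ℂ) ≃L[ℂ] (Fin a → ℂ) × (Fin h → ℂ), (e : (Fin d → ℂ) →L[ℂ] _) = D := by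
  have hr : Module.finrank ℂ (Fin d → ℂ) = Module.finrank ℂ ((Fin a → ℂ) × (Fin h → ℂ)) := by
    simp [hd]
  refine ⟨(LinearMap.linearEquivOfInjective (D : (Fin d → ℂ) →ₗ[ℂ] _) hi
    hr).toContinuousLinearEquiv, ?_⟩
  ext v <;> rfl

/-- The inverse function theorem for a map to a product. -/
theorem inv_prod (hd : a + h = d) {Φ : F → (Fin a → ℂ) × H} {p : F}
    (hΦ : ContMDiffAt 𝓘(ℂ, Fin d → ℂ) (𝓘(ℂ, Fin a → ℂ).prod 𝓘(ℂ, Fin h → ℂ)) ω Φ p)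
    (hi : Function.Injective
      (mfderiv 𝓘(ℂ, Fin d → ℂ) (𝓘(ℂ, Fin a → ℂ).prod 𝓘(ℂ, Fin h → ℂ)) Φ p)) :
    ∃ Ψ : (Fin a → ℂ) × H → F,
      ContMDiffAt (𝓘(ℂ, Fin a → ℂ).prod 𝓘(ℂ, Fin h → ℂ)) 𝓘(ℂ, Fin d → ℂ) ω Ψ (Φ p) ∧
      Ψ (Φ p) = p ∧ ∀ᶠ w in 𝓝 (Φ p), Φ (Ψ w) = w := by
  have hn : (ω : WithTop ℕ∞) ≠ 0 := by simp
  let cF : PartialEquiv F (Fin d → ℂ) := extChartAt 𝓘(ℂ, Fin d → ℂ) p
  let cP : PartialEquiv ((Fin a → ℂ) × H) ((Fin a → ℂ) × (Fin h → ℂ)) :=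
    extChartAt (𝓘(ℂ, Fin a → ℂ).prod 𝓘(ℂ, Fin h → ℂ)) (Φ p)
  let f : (Fin d → ℂ) → (Fin a → ℂ) × (Fin h → ℂ) := fun u => cP (Φ (cF.symm u))
  let D : (Fin d → ℂ) →L[ℂ] (Fin a → ℂ) × (Fin h → ℂ) :=
    mfderiv 𝓘(ℂ, Fin d → ℂ) (𝓘(ℂ, Fin a → ℂ).prod 𝓘(ℂ, Fin h → ℂ)) Φ p
  have hpp : cF.symm (cF p) = p := extChartAt_to_inv (I := 𝓘(ℂ, Fin d → ℂ)) p
  have hfp : f (cF p) = cP (Φ p) := by
    show cP (Φ (cF.symm (cF p))) = cP (Φ p)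
    rw [hpp]
  have hfc : ContDiffAt ℂ ω f (cF p) := by
    have h1 : ContDiffWithinAt ℂ ω f (range 𝓘(ℂ, Fin d → ℂ)) (cF p) := (contMDiffAt_iff.1 hΦ).2
    rwa [ModelWithCorners.range_eq_univ, contDiffWithinAt_univ] at h1
  have hmd : MDifferentiableAt 𝓘(ℂ, Fin d → ℂ) (𝓘(ℂ, Fin a → ℂ).prod 𝓘(ℂ, Fin h → ℂ)) Φ p :=
    hΦ.mdifferentiableAt hn
  have hfd : HasFDerivAt f D (cF p) := by
    have h1 : HasFDerivWithinAt f D (range 𝓘(ℂ, Fin d → ℂ)) (cF p) := hmd.hasMFDerivAt.2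
    rwa [ModelWithCorners.range_eq_univ, hasFDerivWithinAt_univ] at h1
  obtain ⟨e, he⟩ := equiv_of_inj hd D hi
  rw [← he] at hfd
  let L : (Fin a → ℂ) × (Fin h → ℂ) → (Fin d → ℂ) := hfc.localInverse hfd hn
  have hL1 : ContDiffAt ℂ ω L (f (cF p)) := hfc.to_localInverse hfd hn
  have hL2 : L (f (cF p)) = cF p := hfc.localInverse_apply_image hfd hn
  have hL3 : ∀ᶠ y in 𝓝 (f (cF p)), f (L y) = y :=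
    (hfc.hasStrictFDerivAt' hfd hn).eventually_right_inverse
  rw [hfp] at hL1 hL2 hL3
  let Ψ : (Fin a → ℂ) × H → F := fun w => cF.symm (L (cP w))
  have hΨp : Ψ (Φ p) = p := by
    show cF.symm (L (cP (Φ p))) = p
    rw [hL2, hpp]
  have hcP : ContMDiffAt (𝓘(ℂ, Fin a → ℂ).prod 𝓘(ℂ, Fin h → ℂ))
      𝓘(ℂ, (Fin a → ℂ) × (Fin h → ℂ)) ω cP (Φ p) := contMDiffAt_extChartAt
  have hcF : ContMDiffAt 𝓘(ℂ, Fin d → ℂ) 𝓘(ℂ, Fin d → ℂ) ω cF.symm (cF p) :=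
    (contMDiffOn_extChartAt_symm p).contMDiffAt (extChartAt_target_mem_nhds p)
  have hLc : ContMDiffAt 𝓘(ℂ, (Fin a → ℂ) × (Fin h → ℂ)) 𝓘(ℂ, Fin d → ℂ) ω L (cP (Φ p)) :=
    hL1.contMDiffAt
  have hΨ : ContMDiffAt (𝓘(ℂ, Fin a → ℂ).prod 𝓘(ℂ, Fin h → ℂ)) 𝓘(ℂ, Fin d → ℂ) ω Ψ (Φ p) := by
    have h1 : ContMDiffAt (𝓘(ℂ, Fin a → ℂ).prod 𝓘(ℂ, Fin h → ℂ)) 𝓘(ℂ, Fin d → ℂ) ω
        (L ∘ cP) (Φ p) := ContMDiffAt.comp (Φ p) hLc hcP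
    have h2 : (L ∘ cP) (Φ p) = cF p := hL2
    rw [← h2] at hcF
    exact ContMDiffAt.comp (Φ p) hcF h1
  refine ⟨Ψ, hΨ, hΨp, ?_⟩
  have hs : ∀ w, w ∈ cP.source ↔ w ∈
      (extChartAt (𝓘(ℂ, Fin a → ℂ).prod 𝓘(ℂ, Fin h → ℂ)) (Φ p)).source := fun w => Iff.rfl
  have e1 : ∀ᶠ w in 𝓝 (Φ p), w ∈ cP.source :=
    extChartAt_source_mem_nhds (I := 𝓘(ℂ, Fin a → ℂ).prod 𝓘(ℂ, Fin h → ℂ)) (Φ p)
  have e2 : ∀ᶠ w in 𝓝 (Φ p), Φ (Ψ w) ∈ cP.source := by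
    have h1 : ContinuousAt (fun w => Φ (Ψ w)) (Φ p) := by
      have h2 : ContinuousAt Φ (Ψ (Φ p)) := by rw [hΨp]; exact hΦ.continuousAt
      exact ContinuousAt.comp h2 hΨ.continuousAt
    have h3 : Φ (Ψ (Φ p)) = Φ p := by rw [hΨp]
    have h4 := h1.tendsto
    rw [h3] at h4
    exact h4.eventually e1
  have e3 : ∀ᶠ w in 𝓝 (Φ p), f (L (cP w)) = cP w := by
    have h1 : ContinuousAt cP (Φ p) := hcP.continuousAt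
    exact h1.tendsto.eventually hL3
  filter_upwards [e1, e2, e3] with w h1 h2 h3
  exact cP.injOn h2 h1 h3

/-- A map `g` with holomorphic immersive local inverses `(ζ, ξ)` is holomorphic and immersive. -/
theorem loc (hd : a + h = d) {g : (Fin a → ℂ) → H → F} {z : Fin a → ℂ} {x : H}
    {ζ : F → Fin a → ℂ} {ξ : F → H} (h1 : ζ (g z x) = z) (h2 : ξ (g z x) = x)
    (h3 : ContinuousAt ξ (g z x)) (h4 : ∀ᶠ y in 𝓝 (g z x), g (ζ y) (ξ y) = y)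
    (h5 : ∀ j, ContMDiffAt 𝓘(ℂ, Fin d → ℂ) 𝓘(ℂ, ℂ) ω (fun y => ζ y j) (g z x))
    (h6 : ∀ ψ : H → ℂ, ContMDiffAt 𝓘(ℂ, Fin h → ℂ) 𝓘(ℂ, ℂ) ω ψ x →
      ContMDiffAt 𝓘(ℂ, Fin d → ℂ) 𝓘(ℂ, ℂ) ω (fun y => ψ (ξ y)) (g z x))
    (h7 : ∀ v : Fin d → ℂ,
      (∀ j, (mfderiv 𝓘(ℂ, Fin d → ℂ) 𝓘(ℂ, ℂ) (fun y => ζ y j) (g z x) :
        (Fin d → ℂ) →L[ℂ] ℂ) v = 0) →
      (∀ ψ : H → ℂ, ContMDiffAt 𝓘(ℂ, Fin h → ℂ) 𝓘(ℂ, ℂ) ω ψ x →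
        (mfderiv 𝓘(ℂ, Fin d → ℂ) 𝓘(ℂ, ℂ) (fun y => ψ (ξ y)) (g z x) :
          (Fin d → ℂ) →L[ℂ] ℂ) v = 0) → v = 0) :
    ContMDiffAt (𝓘(ℂ, Fin a → ℂ).prod 𝓘(ℂ, Fin h → ℂ)) 𝓘(ℂ, Fin d → ℂ) ω
      (fun w : (Fin a → ℂ) × H => g w.1 w.2) (z, x) ∧
    Function.Injective (mfderiv (𝓘(ℂ, Fin a → ℂ).prod 𝓘(ℂ, Fin h → ℂ)) 𝓘(ℂ, Fin d → ℂ)
      (fun w : (Fin a → ℂ) × H => g w.1 w.2) (z, x)) := by
  have hn : (ω : WithTop ℕ∞) ≠ 0 := by simp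
  let Φ : F → (Fin a → ℂ) × H := fun y => (ζ y, ξ y)
  let p : F := g z x
  have hΦp : Φ p = (z, x) := Prod.ext h1 h2
  have hζ : ContMDiffAt 𝓘(ℂ, Fin d → ℂ) 𝓘(ℂ, Fin a → ℂ) ω ζ p := contMDiffAt_pi_space.2 h5
  have hξ : ContMDiffAt 𝓘(ℂ, Fin d → ℂ) 𝓘(ℂ, Fin h → ℂ) ω ξ p := by
    refine contMDiffAt_iff_target.2 ⟨h3, ?_⟩
    refine contMDiffAt_pi_space.2 fun j => ?_
    have h8 : ContMDiffAt 𝓘(ℂ, Fin h → ℂ) 𝓘(ℂ, ℂ) ω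
        (fun u => extChartAt 𝓘(ℂ, Fin h → ℂ) (ξ p) u j) (ξ p) :=
      contMDiffAt_pi_space.1 contMDiffAt_extChartAt j
    have h9 : ξ p = x := h2
    rw [h9] at h8
    have h10 := h6 _ h8
    rw [h9]
    exact h10
  have hΦ : ContMDiffAt 𝓘(ℂ, Fin d → ℂ) (𝓘(ℂ, Fin a → ℂ).prod 𝓘(ℂ, Fin h → ℂ)) ω Φ p :=
    hζ.prodMk hξ
  have hΦm : MDifferentiableAt 𝓘(ℂ, Fin d → ℂ) (𝓘(ℂ, Fin a → ℂ).prod 𝓘(ℂ, Fin h → ℂ)) Φ p :=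
    hΦ.mdifferentiableAt hn
  have hi : Function.Injective
      (mfderiv 𝓘(ℂ, Fin d → ℂ) (𝓘(ℂ, Fin a → ℂ).prod 𝓘(ℂ, Fin h → ℂ)) Φ p) := by
    have hk : ∀ v : Fin d → ℂ,
        (mfderiv 𝓘(ℂ, Fin d → ℂ) (𝓘(ℂ, Fin a → ℂ).prod 𝓘(ℂ, Fin h → ℂ)) Φ p :
          (Fin d → ℂ) →L[ℂ] (Fin a → ℂ) × (Fin h → ℂ)) v = 0 → v = 0 := by
      intro v hv
      have key : ∀ ρ : (Fin a → ℂ) × H → ℂ,
          ContMDiffAt (𝓘(ℂ, Fin a → ℂ).prod 𝓘(ℂ, Fin h → ℂ)) 𝓘(ℂ, ℂ) ω ρ (Φ p) →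
          (mfderiv 𝓘(ℂ, Fin d → ℂ) 𝓘(ℂ, ℂ) (ρ ∘ Φ) p : (Fin d → ℂ) →L[ℂ] ℂ) v = 0 := by
        intro ρ hρ
        have h8 := mfderiv_comp p (hρ.mdifferentiableAt hn) hΦm
        rw [h8]
        show (mfderiv (𝓘(ℂ, Fin a → ℂ).prod 𝓘(ℂ, Fin h → ℂ)) 𝓘(ℂ, ℂ) ρ (Φ p) :
          (Fin a → ℂ) × (Fin h → ℂ) →L[ℂ] ℂ) ((mfderiv 𝓘(ℂ, Fin d → ℂ)
            (𝓘(ℂ, Fin a → ℂ).prod 𝓘(ℂ, Fin h → ℂ)) Φ p :
            (Fin d → ℂ) →L[ℂ] (Fin a → ℂ) × (Fin h → ℂ)) v) = 0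
        rw [hv, map_zero]
      apply h7 v
      · intro j
        have h8 : ContMDiffAt (𝓘(ℂ, Fin a → ℂ).prod 𝓘(ℂ, Fin h → ℂ)) 𝓘(ℂ, Fin a → ℂ) ω
            (Prod.fst : (Fin a → ℂ) × H → (Fin a → ℂ)) (Φ p) := contMDiffAt_fst
        exact key (fun w => w.1 j) (contMDiffAt_pi_space.1 h8 j)
      · intro ψ hψ
        have h8 : ContMDiffAt (𝓘(ℂ, Fin a → ℂ).prod 𝓘(ℂ, Fin h → ℂ)) 𝓘(ℂ, Fin h → ℂ) ω
            (Prod.snd : (Fin a → ℂ) × H → H) (Φ p) := contMDiffAt_snd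
        have h9 : (Prod.snd : (Fin a → ℂ) × H → H) (Φ p) = x := h2
        have h10 : ContMDiffAt 𝓘(ℂ, Fin h → ℂ) 𝓘(ℂ, ℂ) ω ψ
            ((Prod.snd : (Fin a → ℂ) × H → H) (Φ p)) := by rw [h9]; exact hψ
        exact key (ψ ∘ Prod.snd) (ContMDiffAt.comp (Φ p) h10 h8)
    intro v w hvw
    have h8 := hk (v - w) (by
      have h9 := map_sub (mfderiv 𝓘(ℂ, Fin d → ℂ) (𝓘(ℂ, Fin a → ℂ).prod 𝓘(ℂ, Fin h → ℂ)) Φ p :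
          (Fin d → ℂ) →L[ℂ] (Fin a → ℂ) × (Fin h → ℂ)) v w
      rw [h9]
      exact sub_eq_zero.2 hvw)
    exact sub_eq_zero.1 h8
  obtain ⟨Ψ, hΨ, hΨp, hΦΨ⟩ := inv_prod hd hΦ hi
  have hge : (fun w : (Fin a → ℂ) × H => g w.1 w.2) =ᶠ[𝓝 (z, x)] Ψ := by
    rw [← hΦp]
    have h8 : Tendsto Ψ (𝓝 (Φ p)) (𝓝 p) := by
      have h9 := hΨ.continuousAt.tendsto
      rwa [hΨp] at h9
    filter_upwards [hΦΨ, h8.eventually h4] with w hw hw'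
    have h9 : ζ (Ψ w) = w.1 := congrArg Prod.fst hw
    have h10 : ξ (Ψ w) = w.2 := congrArg Prod.snd hw
    rw [h9, h10] at hw'
    exact hw'
  have hg : ContMDiffAt (𝓘(ℂ, Fin a → ℂ).prod 𝓘(ℂ, Fin h → ℂ)) 𝓘(ℂ, Fin d → ℂ) ω
      (fun w : (Fin a → ℂ) × H => g w.1 w.2) (z, x) := by
    rw [hΦp] at hΨ
    exact hΨ.congr_of_eventuallyEq hge
  refine ⟨hg, ?_⟩
  let G : (Fin a → ℂ) × H → F := fun w => g w.1 w.2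
  have hG : MDifferentiableAt (𝓘(ℂ, Fin a → ℂ).prod 𝓘(ℂ, Fin h → ℂ)) 𝓘(ℂ, Fin d → ℂ) G (z, x) :=
    hg.mdifferentiableAt hn
  have hid : (Φ ∘ G) =ᶠ[𝓝 (z, x)] id := by
    rw [hΦp] at hΦΨ
    filter_upwards [hge, hΦΨ] with w h8 h9
    show Φ (G w) = w
    have h10 : G w = Ψ w := h8
    rw [h10, h9]
  have hc := mfderiv_comp (z, x) (I := 𝓘(ℂ, Fin a → ℂ).prod 𝓘(ℂ, Fin h → ℂ))
    (I'' := 𝓘(ℂ, Fin a → ℂ).prod 𝓘(ℂ, Fin h → ℂ)) (g := Φ) (f := G) hΦm hG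
  rw [hid.mfderiv_eq, mfderiv_id] at hc
  have hleft : Function.LeftInverse
      (mfderiv 𝓘(ℂ, Fin d → ℂ) (𝓘(ℂ, Fin a → ℂ).prod 𝓘(ℂ, Fin h → ℂ)) Φ (G (z, x)))
      (mfderiv (𝓘(ℂ, Fin a → ℂ).prod 𝓘(ℂ, Fin h → ℂ)) 𝓘(ℂ, Fin d → ℂ) G (z, x)) := by
    intro v
    exact (DFunLike.congr_fun hc v).symm
  exact hleft.injective

end Vale.Agent.P281.H48
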