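import Vale.Agent.P281.H83.HKT.Spec
import Vale.Agent.P281.H702.Z.Br2
import Vale.Agent.P281.H64.Z5.Defs
import Vale.Agent.P281.H48.Loc

/-!
# P281 (helper48): products of tori and symplectic manifolds, from the letters of H64/Z5 to IsTH
-/

open Set
open Vale.Agent.P272.K (Cm)
open scoped Manifold ContDiff Topology

noncomputable section

namespace Vale.Agent.P281.H48

theorem sympl_z {h : ℕ} {H : Type} [TopologicalSpace H] [ChartedSpace (Fin h → ℂ) H]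
    (hs : H64.Z5.Sympl h H) : H64.Z.Sympl h H := hs

/-- **[Br3]** -/
theorem isTH_of {d : ℕ} {F : Type} [TopologicalSpace F] [ChartedSpace (Fin d → ℂ) F]
    [IsManifold 𝓘(ℂ, Fin d → ℂ) ω F] (hF : H64.Z5.TorSympl d F) : H83.HKT.IsTH d F := by
  obtain ⟨a, n, H, i₁, i₂, Λ, g, h1, h2, h3, h4, h5, h6, h7, h8⟩ := hF
  have hT : T2Space H := h3.1
  have hc : CompactSpace H := h3.2.compact
  have hm : IsManifold 𝓘(ℂ, Fin n → ℂ) ω H := h3.2.manifold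
  refine ⟨a, n, H, i₁, i₂, Λ, fun w => g w.1 w.2, h1, h2, hT, hc, h4, hm,
    H702.Z.sympl_hk (sympl_z h5), ?_, ?_, ?_⟩
  · intro y
    obtain ⟨z, x, hzx⟩ := h6 y
    exact ⟨(z, x), hzx⟩
  · rintro ⟨z, x⟩
    obtain ⟨ζ, ξ, k1, k2, k3, k4, k5, k6, k7⟩ := h8 z x
    exact loc h1 k1 k2 k3 k4 k5 k6 k7
  · rintro ⟨z, x⟩ ⟨z', x'⟩
    exact h7 z x z' x'

end Vale.Agent.P281.H48
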